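import Vale.Agent.P240.R2.H506.CycB
import Vale.Agent.P240.R2.H406.PDefs
import Vale.Agent.P240.R2.H987.L6

/-!
Block (O3) of (O5+): the top cycles.
-/

set_option autoImplicit false
set_option linter.all false

namespace Vale.Agent.P240.R2.H506

open Matrix Subgroup Vale.Agent.P240 Vale.Agent.P240.K Vale.Agent.P240.H195
open Vale.Agent.P240.R2.H145.EO (B OD)
open Vale.Agent.P240.R2.H145
open Vale.Agent.P240.R2.H406
open Vale.Agent.P240.R2.H490 (ip VR Lt FrD Ew Sm pj)

universe u v w

noncomputable section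

instance finite_Lam {n : ℕ} (a : Fin n → ZMod 5) : Finite (Lam a) := by
  have h1 : Finite (Matrix (Fin n) (Fin n) (ZMod 5)) := inferInstance
  have h2 : Finite (GL (Fin n) (ZMod 5)) := inferInstance
  have h3 : Finite ↥(OD a) := inferInstance
  infer_instance

instance finite_aut {X : Type u} [Group X] [Finite X] : Finite (MulAut X) :=
  Finite.of_injective (fun f : MulAut X => (f : X → X)) DFunLike.coe_injective

lemma two_nsq : ¬ IsSquare (2 : ZMod 5) := by decide

lemma one_sq : IsSquare (1 : ZMod 5) := by decide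

theorem stmtCyc_of (hK : StmtKer) : StmtCyc.{w} := by
  intro n a hP i₀ j₀ hi₀ hj₀ J₀ ρ₁ ρ₂ hc 𝕜 _ M hM
  have ha : ∀ i, a i ≠ 0 := by
    intro i
    rcases hP.val i with h | h <;> rw [h] <;> decide
  have h12 : (1 : ZMod 5) ≠ 2 := by decide
  have hij : i₀ ≠ j₀ := by
    rintro rfl
    exact h12 (hi₀.symm.trans hj₀)
  have hJ : ∀ k ∈ J₀, k = i₀ ∨ k = j₀ := by
    rcases hc with ⟨rfl, -, -⟩ | ⟨rfl, -, -⟩ | ⟨rfl, -, -⟩ | ⟨rfl, -, -⟩ | ⟨rfl, -, -⟩ <;>
      intro k hk <;> simp at hk <;> tauto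
  have hρ : ρ₁ ⊆ J₀ ∧ ρ₂ ⊆ J₀ := by
    rcases hc with ⟨rfl, rfl, rfl⟩ | ⟨rfl, rfl, rfl⟩ | ⟨rfl, rfl, rfl⟩ | ⟨rfl, rfl, rfl⟩ |
      ⟨rfl, rfl, rfl⟩ <;> constructor <;> intro k hk <;> simp at hk ⊢ <;> tauto
  -- the coordinates
  set m := J₀ᶜ.card with hm
  set ι : Fin m → Fin n := ⇑(J₀ᶜ.orderEmbOfFin hm.symm) with hιd
  have hι : Function.Injective ι := (J₀ᶜ.orderEmbOfFin hm.symm).injective
  have hr : ∀ k, (∃ i, ι i = k) ↔ k ∉ J₀ := by
    intro k
    have h1 := Finset.range_orderEmbOfFin J₀ᶜ hm.symm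
    have h2 : k ∈ Set.range ι ↔ k ∈ ((J₀ᶜ : Finset (Fin n)) : Set (Fin n)) := by rw [← h1]
    rw [Finset.mem_coe, Finset.mem_compl] at h2
    exact h2
  have hd1 : Dj ι ρ₁ := fun k hk h => (hr k).1 h (hρ.1 hk)
  have hd2 : Dj ι ρ₂ := fun k hk h => (hr k).1 h (hρ.2 hk)
  -- numbers
  have hn : n = (Finset.univ.filter fun i => a i = 1).card +
      (Finset.univ.filter fun i => a i = 2).card := by
    have h1 := Finset.card_filter_add_card_filter_not (s := (Finset.univ : Finset (Fin n)))
      (fun i => a i = 1)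
    rw [Finset.card_univ, Fintype.card_fin] at h1
    refine h1.symm.trans (congrArg _ (congrArg _ ?_))
    ext i
    simp only [Finset.mem_filter, Finset.mem_univ, true_and]
    exact ⟨fun h => (hP.val i).resolve_left h, fun h => by rw [h]; exact h12.symm⟩
  have hne : Even n := by
    rw [hn]
    exact hP.ev1.add hP.ev2
  have hn8 : 8 ≤ n := by
    have := hP.one
    have := hP.two
    omega
  have hmn : m + J₀.card = n := by
    have h1 := Finset.card_compl_add_card J₀
    rwa [Fintype.card_fin] at h1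
  have hJc : J₀.card ≤ 2 := by
    rcases hc with ⟨rfl, -, -⟩ | ⟨rfl, -, -⟩ | ⟨rfl, -, -⟩ | ⟨rfl, -, -⟩ | ⟨rfl, -, -⟩
    · exact Finset.card_le_two
    all_goals simp
  have hm3 : 3 ≤ m := by omega
  -- the discriminant
  have hdisc : IsSquare (∏ k, a k) := by
    have h1 : ∏ k, a k = 2 ^ (Finset.univ.filter fun i => a i = 2).card := by
      rw [← Finset.prod_filter_mul_prod_filter_not Finset.univ (fun i => a i = 2),
        Finset.prod_congr rfl (g := fun _ => (2 : ZMod 5)) fun i hi => (Finset.mem_filter.1 hi).2,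
        Finset.prod_const, Finset.prod_congr rfl (g := fun _ => (1 : ZMod 5)) fun i hi =>
          (hP.val i).resolve_right (Finset.mem_filter.1 hi).2, Finset.prod_const_one, mul_one]
    rw [h1]
    obtain ⟨r, hr⟩ := hP.ev2
    rw [hr, pow_add]
    exact ⟨_, rfl⟩
  have hprod : (∏ i, a (ι i)) * ∏ k ∈ J₀, a k = ∏ k, a k := by
    rw [← Finset.prod_compl_mul_prod J₀]
    congr 1
    rw [← Finset.prod_image (s := Finset.univ) (g := ι) (f := fun k => a k) fun x _ y _ h => hι h]
    refine Finset.prod_congr ?_ fun _ _ => rfl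
    ext k
    rw [Finset.mem_image, Finset.mem_compl, ← hr]
    simp
  have hsq : IsSquare (∏ i, a (ι i)) ↔ IsSquare (∏ k ∈ J₀, a k) := by
    have h1 : ∏ i, a (ι i) ≠ 0 := Finset.prod_ne_zero_iff.2 fun i _ => ha _
    have h2 : ∏ k ∈ J₀, a k ≠ 0 := Finset.prod_ne_zero_iff.2 fun i _ => ha _
    rw [← sq_prod _ _ h1 h2, hprod]
    exact hdisc
  -- the full products
  have hI : ∀ k, k ∈ J₀ᶜ ↔ ∃ i, ι i = k := by
    intro k
    rw [hr, Finset.mem_compl]
  have hfull : ∀ w ∈ FrD (a ∘ ι), Ew (fun P : Lt (a ∘ ι) => Phi a (RR a ι ρ₁ ρ₂ P.x)) w = 1 := by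
    intro w hw
    obtain ⟨m₁, m₂, h1, h2, h3⟩ := full hι hI hd1 hd2 ha (Phi a) hw
    rw [h3]
    refine (hK n a hP _).2 ?_
    rw [hsq] at h2
    rcases hc with ⟨rfl, rfl, rfl⟩ | ⟨rfl, rfl, rfl⟩ | ⟨rfl, rfl, rfl⟩ | ⟨rfl, rfl, rfl⟩ |
      ⟨rfl, rfl, rfl⟩
    · rw [Finset.prod_pair hij, hi₀, hj₀, one_mul] at h2
      rw [Finset.card_pair hij] at hmn
      have h4 : ¬ Even m₂ := fun h => two_nsq (h2.2 h)
      have h5 : ¬ Even m₁ := by
        intro h
        apply h4
        rw [← hmn, ← h1] at hne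
        have h6 : Even (m₁ + m₂) := by
          rw [Nat.even_add] at hne
          exact hne.2 (by decide)
        exact (Nat.even_add.1 h6).1 h
      right
      rw [if_neg h4, if_neg h5, sg_mul, sg_mul]
      congr 1
      ext k
      simp only [Finset.mem_symmDiff, Finset.mem_compl, Finset.mem_insert, Finset.mem_singleton,
        Finset.mem_univ, iff_true]
      by_cases h6 : k = i₀
      · have h7 : k ≠ j₀ := fun h => hij (h6.symm.trans h)
        simp [h6, hij]
      · by_cases h7 : k = j₀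
        · simp [h7, hij.symm]
        · simp [h6, h7]
    · rw [Finset.prod_singleton, hj₀] at h2
      rw [Finset.card_singleton] at hmn
      have h4 : ¬ Even m₂ := fun h => two_nsq (h2.2 h)
      rw [if_neg h4]
      right
      have h5 : (if Even m₁ then 1 else sg a (∅ : Finset (Fin n))) = 1 := by
        split_ifs
        · rfl
        · exact sg_empty
      rw [h5, one_mul, sg_mul]
      congr 1
      ext k
      simp only [Finset.mem_symmDiff, Finset.mem_compl, Finset.mem_singleton, Finset.mem_univ,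
        iff_true]
      tauto
    · rw [Finset.prod_singleton, hi₀] at h2
      rw [Finset.card_singleton] at hmn
      have h4 : Even m₂ := h2.1 one_sq
      have h5 : ¬ Even m₁ := by
        intro h
        rw [← hmn, ← h1] at hne
        exact absurd hne (by rw [Nat.even_add, Nat.even_add]; simp [h, h4])
      rw [if_pos h4, if_neg h5, mul_one, sg_mul]
      right
      congr 1
      ext k
      simp only [Finset.mem_symmDiff, Finset.mem_compl, Finset.mem_singleton, Finset.mem_univ,
        iff_true]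
      tauto
    · rw [Finset.prod_singleton, hi₀] at h2
      rw [Finset.card_singleton] at hmn
      have h4 : Even m₂ := h2.1 one_sq
      have h5 : ¬ Even m₁ := by
        intro h
        rw [← hmn, ← h1] at hne
        exact absurd hne (by rw [Nat.even_add, Nat.even_add]; simp [h, h4])
      rw [if_pos h4, if_neg h5, mul_one, sg_mul]
      right
      congr 1
      ext k
      simp only [Finset.mem_symmDiff, Finset.mem_compl, Finset.mem_singleton, Finset.mem_univ,
        iff_true]
      tauto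
    · have h5 : ∀ m₁ : ℕ, (if Even m₁ then 1 else sg a (∅ : Finset (Fin n))) = 1 := by
        intro m₁
        split_ifs
        · rfl
        · exact sg_empty
      right
      rw [h5, h5, mul_one, mul_one, Finset.compl_empty]
  have hvr : VR (a ∘ ι) (fun x => Phi a (RR a ι ρ₁ ρ₂ x)) :=
    vr hι (Phi a) hd1 hd2 hm3 ha fun g hg => (hK n a hP g).1 hg
  have hsg : ∀ i, rfl' a (Pi.single i 1) * sg a (cr ρ₁ ρ₂ (B a (Pi.single i 1) (Pi.single i 1))) =
      sg a {i} * sg a (if a i = 1 then ρ₁ else ρ₂) := by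
    intro i
    rw [rfl'_e (ha i), B_ee, cr]
    congr 2
    rcases hP.val i with h | h
    · rw [h, if_pos one_sq, if_pos rfl]
    · rw [h, if_neg two_nsq, if_neg h12.symm]
  obtain ⟨α, φ, hα⟩ := H987.top_std (d := a ∘ ι) (R := fun x => Phi a (RR a ι ρ₁ ρ₂ x))
    (RingEquiv.refl (ZMod 5)) (by omega) (fun i => ha (ι i)) hvr hfull M (by
      intro x hx
      refine hM (ex ι x) (fun i hi => ex_off x fun h => (hr i).1 h hi) ?_
      rw [B_ex hι]
      exact hx) (by
      obtain ⟨i, hi, hi'⟩ : ∃ i ∈ Finset.univ.filter fun i => a i = 1, i ≠ i₀ := by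
        refine Finset.exists_mem_ne ?_ i₀
        have := hP.one
        omega
      have h1 : a i = 1 := (Finset.mem_filter.1 hi).2
      obtain ⟨t, ht⟩ := (hr i).2 fun h => by
        rcases hJ i h with h | h
        · exact hi' h
        · rw [h, hj₀] at h1
          exact h12 h1.symm
      refine ⟨t, ?_⟩
      show IsSquare (a (ι t))
      rw [ht, h1]
      exact one_sq) (by
      obtain ⟨i, hi, hi'⟩ : ∃ i ∈ Finset.univ.filter fun i => a i = 2, i ≠ j₀ := by
        refine Finset.exists_mem_ne ?_ j₀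
        have := hP.two
        omega
      have h1 : a i = 2 := (Finset.mem_filter.1 hi).2
      obtain ⟨t, ht⟩ := (hr i).2 fun h => by
        rcases hJ i h with h | h
        · rw [h, hi₀] at h1
          exact h12 h1
        · exact hi' h
      refine ⟨t, ?_⟩
      show ¬ IsSquare (a (ι t))
      rw [ht, h1]
      exact two_nsq) 𝕜
  refine ⟨α, φ, ?_⟩
  convert hα using 2
  ext f
  constructor
  · rintro ⟨i, hi, rfl⟩
    obtain ⟨t, rfl⟩ := (hr i).2 hi
    refine ⟨t, ?_⟩
    show Phi a (RR a ι ρ₁ ρ₂ (Pi.single t 1)) = _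
    rw [RR, ex_single hι, hsg]
  · rintro ⟨t, rfl⟩
    refine ⟨ι t, (hr _).1 ⟨t, rfl⟩, ?_⟩
    show Phi a (RR a ι ρ₁ ρ₂ (Pi.single t 1)) = _
    rw [RR, ex_single hι, hsg]

end

end Vale.Agent.P240.R2.H506
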