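import Vale.Agent.P240.R2.H506.CycA
import Vale.Agent.P240.R2.H458.PD

/-!
Block (S6) of P4d: systems of reflections on an isometrically embedded space.
-/

set_option autoImplicit false
set_option linter.all false

namespace Vale.Agent.P240.R2.H506

open Matrix Subgroup
open Vale.Agent.P240.R2.H145.EO (B OD)
open Vale.Agent.P240.R2.H145
open Vale.Agent.P240.R2.H406
open Vale.Agent.P240.R2.H490 (ip VR Lt FrD Ew Sm pj)
open Vale.Agent.P240.R2.H458 (cor StmtVR)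

universe u v w

noncomputable section

section
variable {N n : ℕ} {a : Fin N → ZMod 5} {d : Fin n → ZMod 5} {ρ₁ ρ₂ : ↥(OD a)}

lemma cor_cases (x : Fin N → ZMod 5) : cor ρ₁ ρ₂ x = ρ₁ ∨ cor ρ₁ ρ₂ x = ρ₂ := by
  unfold cor
  split_ifs
  · exact Or.inl rfl
  · exact Or.inr rfl

lemma cor_congr {x y : Fin N → ZMod 5} (h : IsSquare (B a x x) ↔ IsSquare (B a y y)) :
    cor ρ₁ ρ₂ x = cor ρ₁ ρ₂ y := by
  unfold cor
  by_cases h1 : IsSquare (B a x x)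
  · rw [if_pos h1, if_pos (h.1 h1)]
  · rw [if_neg h1, if_neg fun h2 => h1 (h.2 h2)]

lemma cor_mul (h11 : ρ₁ * ρ₁ = 1) (h22 : ρ₂ * ρ₂ = 1) (h12 : ρ₁ * ρ₂ = ρ₂ * ρ₁)
    {x y x' y' : Fin N → ZMod 5} (hx : B a x x ≠ 0) (hy : B a y y ≠ 0) (hx' : B a x' x' ≠ 0)
    (hy' : B a y' y' ≠ 0)
    (h : IsSquare (B a x x * B a y y) ↔ IsSquare (B a x' x' * B a y' y')) :
    cor ρ₁ ρ₂ x * cor ρ₁ ρ₂ y = cor ρ₁ ρ₂ x' * cor ρ₁ ρ₂ y' := by
  rw [sq_prod _ _ hx hy, sq_prod _ _ hx' hy'] at h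
  unfold cor
  by_cases h1 : IsSquare (B a x x) <;> by_cases h2 : IsSquare (B a y y) <;>
    by_cases h3 : IsSquare (B a x' x') <;> by_cases h4 : IsSquare (B a y' y') <;>
    simp only [h1, h2, h3, h4, if_true, if_false, iff_true, iff_false,
      true_iff, false_iff, not_true_eq_false, not_false_eq_true, iff_self] at h ⊢ <;>
    first
      | rfl
      | rw [h11, h22]
      | exact h12
      | exact h12.symm
      | exact h.elim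
      | simp at h

section
variable (ι : (Fin n → ZMod 5) →ₗ[ZMod 5] (Fin N → ZMod 5))
  (hB : ∀ x y, B a (ι x) (ι y) = ip d x y)
include hB

/-- two reflections in a plane -/
lemma plane_rfl6 {x y x' y' : Fin n → ZMod 5} (hx : ip d x x ≠ 0) (hy : ip d y y ≠ 0)
    (hx' : ip d x' x' ≠ 0) (hy' : ip d y' y' ≠ 0) (hxy : ip d x y = 0)
    (hxy' : ip d x' y' = 0) {α β γ δ : ZMod 5} (h1 : x' = α • x + β • y)
    (h2 : y' = γ • x + δ • y) :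
    rfl' a (ι x) * rfl' a (ι y) = rfl' a (ι x') * rfl' a (ι y') ∧
    ip d x' x' * ip d y' y' = ip d x x * ip d y y *
      ((α * δ - β * γ) * (α * δ - β * γ)) ∧ (α * δ - β * γ) ≠ 0 := by
  set X := ip d x x with hXd
  set Y := ip d y y with hYd
  have hyx : ip d y x = 0 := by rw [H490.ip_comm, hxy]
  have e1 : ip d x' x' = α * α * X + β * β * Y := by
    rw [h1]
    simp only [H490.ip_add_left, H490.ip_add_right, H490.ip_smul_left, H490.ip_smul_right, hxy, hyx]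
    ring
  have e2 : ip d y' y' = γ * γ * X + δ * δ * Y := by
    rw [h2]
    simp only [H490.ip_add_left, H490.ip_add_right, H490.ip_smul_left, H490.ip_smul_right, hxy, hyx]
    ring
  have e3 : α * γ * X + β * δ * Y = 0 := by
    rw [← hxy', h1, h2]
    simp only [H490.ip_add_left, H490.ip_add_right, H490.ip_smul_left, H490.ip_smul_right, hxy, hyx]
    ring
  have e4 : ip d x' x' * ip d y' y' = X * Y * ((α * δ - β * γ) * (α * δ - β * γ)) := by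
    rw [e1, e2]
    linear_combination (α * γ * X + β * δ * Y) * e3
  refine ⟨?_, e4, ?_⟩
  · have hgen : ∀ {x y : Fin n → ZMod 5}, ip d x x ≠ 0 → ip d y y ≠ 0 →
        ip d x y = 0 → ∀ z, act (rfl' a (ι x) * rfl' a (ι y)) z =
          z - (2 : ZMod 5) • ((B a (ι x) z / ip d x x) • ι x + (B a (ι y) z / ip d y y) • ι y) := by
      intro x y hx hy hxy z
      rw [act_mul, act_rfl' (by rw [hB]; exact hx), act_rfl' (by rw [hB]; exact hy),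
        EO.B_sub_right, EO.B_smul_right, hB, hB, hB, hxy, mul_zero, sub_zero,
        smul_add, smul_smul, smul_smul, mul_div_assoc, mul_div_assoc]
      abel
    refine act_ext fun z => ?_
    rw [hgen hx hy hxy, hgen hx' hy' hxy', ← hXd, ← hYd]
    congr 2
    set p := B a (ι x) z with hp
    set q := B a (ι y) z with hq
    have e5 : ι x' = α • ι x + β • ι y := by
      rw [h1, map_add, map_smul, map_smul]
    have e6 : ι y' = γ • ι x + δ • ι y := by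
      rw [h2, map_add, map_smul, map_smul]
    have e7 : B a (ι x') z = α * p + β * q := by
      rw [e5, EO.B_add_left, EO.B_smul_left, EO.B_smul_left]
    have e8 : B a (ι y') z = γ * p + δ * q := by
      rw [e6, EO.B_add_left, EO.B_smul_left, EO.B_smul_left]
    have e9 := plane_aux (p := p) (q := q) hx hy hx' hy' e1 e2 e3
    have e10 : β * (β * q + α * p) / ip d x' x' + δ * (δ * q + γ * p) / ip d y' y' =
        q / Y := plane_aux (p := q) (q := p) hy hx hx' hy' (by rw [e1]; ring) (by rw [e2]; ring)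
          (by rw [← e3]; ring)
    rw [e7, e8, ← e9, ← e10, e5, e6]
    module
  · intro h0
    rw [h0, mul_zero, mul_zero] at e4
    exact mul_ne_zero hx' hy' e4

end

lemma cor_sq (h11 : ρ₁ * ρ₁ = 1) (h22 : ρ₂ * ρ₂ = 1) (z : Fin N → ZMod 5) :
    cor ρ₁ ρ₂ z * cor ρ₁ ρ₂ z = 1 := by
  rcases cor_cases (ρ₁ := ρ₁) (ρ₂ := ρ₂) z with h | h <;> rw [h]
  · exact h11
  · exact h22

lemma cor_comm (h12 : ρ₁ * ρ₂ = ρ₂ * ρ₁) (z z' : Fin N → ZMod 5) :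
    cor ρ₁ ρ₂ z * cor ρ₁ ρ₂ z' = cor ρ₁ ρ₂ z' * cor ρ₁ ρ₂ z := by
  rcases cor_cases (ρ₁ := ρ₁) (ρ₂ := ρ₂) z with h | h <;>
    rcases cor_cases (ρ₁ := ρ₁) (ρ₂ := ρ₂) z' with h' | h' <;> rw [h, h']
  · exact h12
  · exact h12.symm

lemma cor_act {ι : (Fin n → ZMod 5) →ₗ[ZMod 5] (Fin N → ZMod 5)} (h1 : ∀ x, act ρ₁ (ι x) = ι x)
    (h2 : ∀ x, act ρ₂ (ι x) = ι x) (z : Fin N → ZMod 5) (x : Fin n → ZMod 5) :
    act (cor ρ₁ ρ₂ z) (ι x) = ι x := by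
  rcases cor_cases (ρ₁ := ρ₁) (ρ₂ := ρ₂) z with h | h <;> rw [h]
  · exact h1 x
  · exact h2 x

lemma cor_rfl {ι : (Fin n → ZMod 5) →ₗ[ZMod 5] (Fin N → ZMod 5)} (h1 : ∀ x, act ρ₁ (ι x) = ι x)
    (h2 : ∀ x, act ρ₂ (ι x) = ι x) (z : Fin N → ZMod 5) (x : Fin n → ZMod 5) :
    cor ρ₁ ρ₂ z * rfl' a (ι x) = rfl' a (ι x) * cor ρ₁ ρ₂ z := by
  have h3 := rfl'_conj (a := a) (cor ρ₁ ρ₂ z) (ι x)
  rw [cor_act h1 h2] at h3
  exact mul_inv_eq_iff_eq_mul.1 h3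

/-- the corrected reflection -/
def R6 (ι : (Fin n → ZMod 5) →ₗ[ZMod 5] (Fin N → ZMod 5)) (ρ₁ ρ₂ : ↥(OD a)) (x : Fin n → ZMod 5) :
    ↥(OD a) := rfl' a (ι x) * cor ρ₁ ρ₂ (ι x)

lemma R6_mul {ι : (Fin n → ZMod 5) →ₗ[ZMod 5] (Fin N → ZMod 5)} (h1 : ∀ x, act ρ₁ (ι x) = ι x)
    (h2 : ∀ x, act ρ₂ (ι x) = ι x) (x y : Fin n → ZMod 5) :
    R6 ι ρ₁ ρ₂ x * R6 ι ρ₁ ρ₂ y =
      rfl' a (ι x) * rfl' a (ι y) * (cor ρ₁ ρ₂ (ι x) * cor ρ₁ ρ₂ (ι y)) := by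
  have h7 := cor_rfl h1 h2 (ι x) y
  calc _ = rfl' a (ι x) * (cor ρ₁ ρ₂ (ι x) * rfl' a (ι y)) * cor ρ₁ ρ₂ (ι y) := by
        rw [R6, R6]
        group
    _ = _ := by rw [h7]; group

lemma R6_smul (ι : (Fin n → ZMod 5) →ₗ[ZMod 5] (Fin N → ZMod 5)) {c : ZMod 5} (hc : c ≠ 0)
    (x : Fin n → ZMod 5) : R6 ι ρ₁ ρ₂ (c • x) = R6 ι ρ₁ ρ₂ x := by
  rw [R6, R6, map_smul, rfl'_smul hc]
  congr 1
  refine cor_congr ?_
  rw [EO.B_smul_left, EO.B_smul_right]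
  exact sq_mul c _ hc

lemma R6_sq {ι : (Fin n → ZMod 5) →ₗ[ZMod 5] (Fin N → ZMod 5)} (h11 : ρ₁ * ρ₁ = 1)
    (h22 : ρ₂ * ρ₂ = 1) (h1 : ∀ x, act ρ₁ (ι x) = ι x) (h2 : ∀ x, act ρ₂ (ι x) = ι x)
    (x : Fin n → ZMod 5) : R6 ι ρ₁ ρ₂ x * R6 ι ρ₁ ρ₂ x = 1 := by
  rw [R6_mul h1 h2, rfl'_mul_self, one_mul, cor_sq h11 h22]

section
variable {ι : (Fin n → ZMod 5) →ₗ[ZMod 5] (Fin N → ZMod 5)}
  (hB : ∀ x y, B a (ι x) (ι y) = ip d x y)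
include hB

lemma R6_act (h1 : ∀ x, act ρ₁ (ι x) = ι x) (h2 : ∀ x, act ρ₂ (ι x) = ι x)
    (x z : Fin n → ZMod 5) (hx : ip d x x ≠ 0) :
    act (R6 ι ρ₁ ρ₂ x) (ι z) = ι z - (2 * ip d x z / ip d x x) • ι x := by
  rw [R6, act_mul, cor_act h1 h2, act_rfl' (by rw [hB]; exact hx), hB, hB]

lemma io_inj (hd : ∀ i, d i ≠ 0) {x y : Fin n → ZMod 5} (h : ι x = ι y) : x = y := by
  refine H490.ip_ext d hd fun z => ?_
  rw [← hB, ← hB, h]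

lemma R6_ne (hd : ∀ i, d i ≠ 0) (hn : 3 ≤ n) (h1 : ∀ x, act ρ₁ (ι x) = ι x)
    (h2 : ∀ x, act ρ₂ (ι x) = ι x) {x y : Fin n → ZMod 5} (hx : ip d x x ≠ 0)
    (hy : ip d y y ≠ 0) : R6 ι ρ₁ ρ₂ x ≠ sg a Finset.univ * R6 ι ρ₁ ρ₂ y := by
  intro h5
  obtain ⟨z, hz0, hz1, hz2⟩ := exists_perp hn d x y
  have h6 := R6_act hB h1 h2 x z hx
  rw [h5, act_mul, R6_act hB h1 h2 y z hy, hz1, hz2, mul_zero, zero_div, zero_smul, sub_zero,
    zero_div, zero_smul, sub_zero, act_sg] at h6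
  apply hz0
  apply io_inj hB hd
  rw [map_zero]
  funext i
  have h7 := congrFun h6 i
  simp only [Finset.mem_univ, if_true] at h7
  refine five _ ?_
  rw [two_mul]
  nth_rw 1 [← h7]
  exact neg_add_cancel _

lemma R6_inj (hd : ∀ i, d i ≠ 0) (h1 : ∀ x, act ρ₁ (ι x) = ι x)
    (h2 : ∀ x, act ρ₂ (ι x) = ι x) {x y : Fin n → ZMod 5} (hx : ip d x x ≠ 0)
    (hy : ip d y y ≠ 0) (h4 : R6 ι ρ₁ ρ₂ x = R6 ι ρ₁ ρ₂ y) : ∃ c : ZMod 5, y = c • x := by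
  have h5 := R6_act hB h1 h2 x y hx
  rw [h4, R6_act hB h1 h2 y y hy] at h5
  refine ⟨ip d x y / ip d x x, ?_⟩
  apply io_inj hB hd
  rw [map_smul]
  have h6 : (2 * ip d y y / ip d y y) = (2 : ZMod 5) := by
    rw [mul_div_assoc, div_self hy, mul_one]
  rw [h6, mul_div_assoc, ← smul_smul] at h5
  have h7 := sub_right_injective h5
  have h8 : (3 : ZMod 5) • (2 : ZMod 5) • ι y = (3 : ZMod 5) • (2 : ZMod 5) •
    ((ip d x y / ip d x x) • ι x) := congrArg _ h7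
  have h9 : (3 : ZMod 5) * 2 = 1 := by decide
  rwa [smul_smul, smul_smul, h9, one_smul, one_smul] at h8

lemma R6_cnj (h11 : ρ₁ * ρ₁ = 1) (h22 : ρ₂ * ρ₂ = 1) (h12 : ρ₁ * ρ₂ = ρ₂ * ρ₁)
    (h1 : ∀ x, act ρ₁ (ι x) = ι x) (h2 : ∀ x, act ρ₂ (ι x) = ι x) (x y : Fin n → ZMod 5)
    (hx : ip d x x ≠ 0) :
    R6 ι ρ₁ ρ₂ x * R6 ι ρ₁ ρ₂ y * R6 ι ρ₁ ρ₂ x = R6 ι ρ₁ ρ₂ (H490.rf d x y) := by
  have h3 : ι (H490.rf d x y) = act (rfl' a (ι x)) (ι y) := by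
    rw [act_rfl' (by rw [hB]; exact hx), hB, hB, H490.rf, map_sub, map_smul]
    congr 2
    rw [div_eq_mul_inv]
    ring
  have h6 := rfl'_conj (a := a) (rfl' a (ι x)) (ι y)
  rw [rfl'_inv] at h6
  have h7 : cor ρ₁ ρ₂ (act (rfl' a (ι x)) (ι y)) = cor ρ₁ ρ₂ (ι y) := cor_congr (by rw [act_B])
  have h4 := cor_rfl h1 h2 (ι x) y
  have h5 := cor_rfl h1 h2 (ι y) x
  have h8 := cor_rfl h1 h2 (ι x) x
  have h9 := cor_comm h12 (ι x) (ι y)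
  have h10 := cor_sq h11 h22 (ι x)
  rw [R6, R6, R6, h3, h7, ← h6]
  generalize cor ρ₁ ρ₂ (ι x) = s at *
  generalize cor ρ₁ ρ₂ (ι y) = t at *
  generalize rfl' a (ι x) = r at *
  generalize rfl' a (ι y) = r' at *
  calc r * s * (r' * t) * (r * s) = r * (s * r') * (t * r) * s := by group
    _ = r * (r' * s) * (r * t) * s := by rw [h4, h5]
    _ = r * r' * (s * r) * (t * s) := by group
    _ = r * r' * (r * s) * (s * t) := by rw [h8, h9]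
    _ = r * r' * r * ((s * s) * t) := by group
    _ = r * r' * r * t := by rw [h10, one_mul]

lemma R6_plane (h11 : ρ₁ * ρ₁ = 1) (h22 : ρ₂ * ρ₂ = 1) (h12 : ρ₁ * ρ₂ = ρ₂ * ρ₁)
    (h1 : ∀ x, act ρ₁ (ι x) = ι x) (h2 : ∀ x, act ρ₂ (ι x) = ι x) {x y x' y' : Fin n → ZMod 5}
    (hx : ip d x x ≠ 0) (hy : ip d y y ≠ 0)
    (hx' : ip d x' x' ≠ 0) (hy' : ip d y' y' ≠ 0) (hxy : ip d x y = 0)
    (hxy' : ip d x' y' = 0) {α β γ δ : ZMod 5} (hp : x' = α • x + β • y)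
    (hq : y' = γ • x + δ • y) :
    R6 ι ρ₁ ρ₂ x * R6 ι ρ₁ ρ₂ y = R6 ι ρ₁ ρ₂ x' * R6 ι ρ₁ ρ₂ y' := by
  obtain ⟨h3, h4, h5⟩ := plane_rfl6 ι hB hx hy hx' hy' hxy hxy' hp hq
  have h6 : IsSquare (B a (ι x) (ι x) * B a (ι y) (ι y)) ↔
      IsSquare (B a (ι x') (ι x') * B a (ι y') (ι y')) := by
    rw [hB, hB, hB, hB, h4, mul_comm _ ((α * δ - β * γ) * (α * δ - β * γ)), sq_mul' _ _ h5]
  rw [R6_mul h1 h2, R6_mul h1 h2, h3]
  congr 1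
  exact cor_mul h11 h22 h12 (by rwa [hB]) (by rwa [hB]) (by rwa [hB]) (by rwa [hB]) h6

variable {G : Type u} [Group G] (Φ : ↥(OD a) →* G)

/-- **the system of reflections** -/
theorem vr6 (hd : ∀ i, d i ≠ 0) (hn : 3 ≤ n) (h11 : ρ₁ * ρ₁ = 1) (h22 : ρ₂ * ρ₂ = 1)
    (h12 : ρ₁ * ρ₂ = ρ₂ * ρ₁) (h1 : ∀ x, act ρ₁ (ι x) = ι x) (h2 : ∀ x, act ρ₂ (ι x) = ι x)
    (hker : ∀ g, Φ g = 1 → g = 1 ∨ g = sg a Finset.univ) :
    VR d (fun x => Φ (R6 ι ρ₁ ρ₂ x)) where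
  smul c x hc _ := congrArg Φ (R6_smul ι hc x)
  inj x y hx hy hxy := by
    have hxy' : Φ (R6 ι ρ₁ ρ₂ x) = Φ (R6 ι ρ₁ ρ₂ y) := hxy
    have h3 : Φ (R6 ι ρ₁ ρ₂ x * (R6 ι ρ₁ ρ₂ y)⁻¹) = 1 := by
      rw [map_mul, map_inv, hxy', mul_inv_cancel]
    rcases hker _ h3 with h4 | h4
    · exact R6_inj hB hd h1 h2 hx hy (mul_inv_eq_one.1 h4)
    · exact absurd (mul_inv_eq_iff_eq_mul.1 h4) (R6_ne hB hd hn h1 h2 hx hy)
  sq x _ := by
    show Φ _ * Φ _ = 1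
    rw [← map_mul, R6_sq h11 h22 h1 h2, map_one]
  cnj x y hx _ := by
    show Φ _ * Φ _ * Φ _ = Φ _
    rw [← map_mul, ← map_mul, R6_cnj hB h11 h22 h12 h1 h2 x y hx]
  plane x y x' y' hx hy hx' hy' hxy hxy' hp hq := by
    obtain ⟨α, β, hp⟩ := hp
    obtain ⟨γ, δ, hq⟩ := hq
    show Φ _ * Φ _ = Φ _ * Φ _
    rw [← map_mul, ← map_mul, R6_plane hB h11 h22 h12 h1 h2 hx hy hx' hy' hxy hxy' hp hq]

end

end

/-- **Block (S6).** -/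
theorem stmtVR : StmtVR := fun N a ha hK n d hd hn ι hB ρ₁ ρ₂ h11 h22 h12 h1 h2 =>
  vr6 hB (Phi a) hd hn h11 h22 h12 h1 h2 fun g hg => (hK g).1 hg

end

end Vale.Agent.P240.R2.H506
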