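import Vale.Agent.P240.Bdl.B1

/-!
A pentagon of involutions gives a top cycle of rank two at the prime `2`: `g i` (`i` mod `5`)
involutions, neighbours distinct and commuting, non-neighbours not commuting.
-/

set_option autoImplicit false
set_option linter.all false

namespace Vale.Agent.P240.R2.H506

open Finsupp Subgroup Vale.Agent.P240.K

universe u v

section four
variable {G : Type u} [Group G]

lemma inv_self {a : G} (ha : a * a = 1) : a⁻¹ = a := inv_eq_of_mul_eq_one_left ha

/-- the cyclic group of order at most two -/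
def Z2 (a : G) (ha : a * a = 1) : Subgroup G where
  carrier := {x | x = 1 ∨ x = a}
  one_mem' := Or.inl rfl
  mul_mem' := by
    rintro x y (rfl | rfl) (rfl | rfl)
    · exact Or.inl (mul_one _)
    · exact Or.inr (one_mul _)
    · exact Or.inr (mul_one _)
    · exact Or.inl ha
  inv_mem' := by
    rintro x (rfl | rfl)
    · exact Or.inl inv_one
    · exact Or.inr (inv_self ha)

/-- the group generated by two commuting involutions -/
def V4 (a b : G) (ha : a * a = 1) (hb : b * b = 1) (hab : a * b = b * a) : Subgroup G where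
  carrier := {x | x = 1 ∨ x = a ∨ x = b ∨ x = a * b}
  one_mem' := Or.inl rfl
  mul_mem' := by
    have e1 : a * (a * b) = b := by rw [← mul_assoc, ha, one_mul]
    have e2 : b * (a * b) = a := by rw [← mul_assoc, ← hab, mul_assoc, hb, mul_one]
    have e3 : a * b * a = b := by rw [hab, mul_assoc, ha, mul_one]
    have e4 : a * b * b = a := by rw [mul_assoc, hb, mul_one]
    have e5 : a * b * (a * b) = 1 := by rw [← mul_assoc, e3, hb]
    rintro x y (rfl | rfl | rfl | rfl) (rfl | rfl | rfl | rfl)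
    · exact Or.inl (mul_one _)
    · exact Or.inr (Or.inl (one_mul _))
    · exact Or.inr (Or.inr (Or.inl (one_mul _)))
    · exact Or.inr (Or.inr (Or.inr (one_mul _)))
    · exact Or.inr (Or.inl (mul_one _))
    · exact Or.inl ha
    · exact Or.inr (Or.inr (Or.inr rfl))
    · exact Or.inr (Or.inr (Or.inl e1))
    · exact Or.inr (Or.inr (Or.inl (mul_one _)))
    · exact Or.inr (Or.inr (Or.inr hab.symm))
    · exact Or.inl hb
    · exact Or.inr (Or.inl e2)
    · exact Or.inr (Or.inr (Or.inr (mul_one _)))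
    · exact Or.inr (Or.inr (Or.inl e3))
    · exact Or.inr (Or.inl e4)
    · exact Or.inl e5
  inv_mem' := by
    rintro x (rfl | rfl | rfl | rfl)
    · exact Or.inl inv_one
    · exact Or.inr (Or.inl (inv_self ha))
    · exact Or.inr (Or.inr (Or.inl (inv_self hb)))
    · refine Or.inr (Or.inr (Or.inr ?_))
      rw [mul_inv_rev, inv_self ha, inv_self hb, hab]

variable {a b : G} (ha : a * a = 1) (hb : b * b = 1) (hab : a * b = b * a)

lemma mem_V4 {x : G} : x ∈ V4 a b ha hb hab ↔ x = 1 ∨ x = a ∨ x = b ∨ x = a * b := Iff.rfl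

lemma mem_Z2 {x : G} : x ∈ Z2 a ha ↔ x = 1 ∨ x = a := Iff.rfl

lemma V4_eq : V4 a b ha hb hab = closure {a, b} := by
  apply le_antisymm
  · have h1 : a ∈ closure ({a, b} : Set G) := subset_closure (Set.mem_insert _ _)
    have h2 : b ∈ closure ({a, b} : Set G) := subset_closure (Set.mem_insert_of_mem _ rfl)
    rintro x (rfl | rfl | rfl | rfl)
    · exact one_mem _
    · exact h1
    · exact h2
    · exact mul_mem h1 h2
  · rw [closure_le]
    rintro x (rfl | rfl)
    · exact Or.inr (Or.inl rfl)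
    · exact Or.inr (Or.inr (Or.inl rfl))

lemma V4_comm : ∀ x ∈ V4 a b ha hb hab, ∀ y ∈ V4 a b ha hb hab, x * y = y * x := by
  have h1 : a * (a * b) = a * b * a := by rw [mul_assoc, hab]
  have h2 : b * (a * b) = a * b * b := by rw [← mul_assoc, ← hab]
  rintro x (rfl | rfl | rfl | rfl) y (rfl | rfl | rfl | rfl)
  · rfl
  · rw [one_mul, mul_one]
  · rw [one_mul, mul_one]
  · rw [one_mul, mul_one]
  · rw [one_mul, mul_one]
  · rfl
  · exact hab
  · exact h1
  · rw [one_mul, mul_one]
  · exact hab.symm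
  · rfl
  · exact h2
  · rw [one_mul, mul_one]
  · exact h1.symm
  · exact h2.symm
  · rfl

lemma V4_sq : ∀ x ∈ V4 a b ha hb hab, x ^ 2 = 1 := by
  rintro x (rfl | rfl | rfl | rfl)
  · exact one_pow _
  · rw [pow_two, ha]
  · rw [pow_two, hb]
  · rw [pow_two, ← mul_assoc, mul_assoc a b a, ← hab, ← mul_assoc, ha, one_mul, hb]

lemma Z2_le : Z2 a ha ≤ V4 a b ha hb hab := by
  rintro x (rfl | rfl)
  · exact Or.inl rfl
  · exact Or.inr (Or.inl rfl)

lemma Z2_le' : Z2 b hb ≤ V4 a b ha hb hab := by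
  rintro x (rfl | rfl)
  · exact Or.inl rfl
  · exact Or.inr (Or.inr (Or.inl rfl))

lemma V4_card (h1 : a ≠ 1) (h2 : b ≠ 1) (h3 : a ≠ b) : Nat.card (V4 a b ha hb hab) = 4 := by
  have h4 : a * b ≠ 1 := by
    intro h
    apply h3
    rw [← inv_self hb]
    exact eq_inv_of_mul_eq_one_left h
  have h5 : a ≠ a * b := by
    intro h
    exact h2 (mul_left_cancel (h.symm.trans (mul_one a).symm))
  have h6 : b ≠ a * b := by
    intro h
    exact h1 (mul_right_cancel (h.symm.trans (one_mul b).symm))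
  have hs : ((V4 a b ha hb hab : Subgroup G) : Set G) = {1, a, b, a * b} := by
    ext x
    rw [SetLike.mem_coe, mem_V4]
    simp only [Set.mem_insert_iff, Set.mem_singleton_iff]
  have h7 : Nat.card (V4 a b ha hb hab) = Set.ncard ((V4 a b ha hb hab : Subgroup G) : Set G) := rfl
  rw [h7, hs, Set.ncard_insert_of_notMem, Set.ncard_insert_of_notMem, Set.ncard_pair h6]
  · rintro (h | h)
    · exact h3 h
    · exact h5 h
  · rintro (h | h | h)
    · exact h1 h.symm
    · exact h2 h.symm
    · exact h4 h.symm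

end four

section pent
variable {G : Type u} [Group G] [Finite G] {k : Type v} [Field k]

theorem pent (g : ZMod 5 → G) (h2 : ∀ i, g i * g i = 1) (h1 : ∀ i, g i ≠ 1)
    (hc : ∀ i, g i * g (i + 1) = g (i + 1) * g i) (hd : ∀ i, g i ≠ g (i + 1))
    (hn : ∀ i, g i ≠ g (i + 2)) (hn' : ∀ i, g i * g (i + 2) ≠ g (i + 2) * g i)
    {M : Subgroup G} (hM : ∀ i, g i ∈ M) :
    ∃ (α : Ch k (Subgroup G)) (φ : List (Subgroup G)),
      TopCycle k 2 M (closure {g 0, g 1}) α φ := by
  classical
  set V : ZMod 5 → Subgroup G := fun i => V4 (g i) (g (i + 1)) (h2 i) (h2 (i + 1)) (hc i) with hV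
  set Z : ZMod 5 → Subgroup G := fun i => Z2 (g i) (h2 i) with hZ
  have hgV : ∀ i, g i ∈ V i := fun i => Or.inr (Or.inl rfl)
  have hgV' : ∀ i, g (i + 1) ∈ V i := fun i => Or.inr (Or.inr (Or.inl rfl))
  have hVM : ∀ i, V i ≤ M := by
    intro i x hx
    rcases hx with rfl | rfl | rfl | rfl
    · exact one_mem _
    · exact hM _
    · exact hM _
    · exact mul_mem (hM _) (hM _)
  have hVA : ∀ i, V i ∈ ApS 2 G := by
    intro i
    refine ⟨?_, V4_comm _ _ _, V4_sq _ _ _⟩
    intro h
    have h3 := hgV i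
    rw [h, mem_bot] at h3
    exact h1 i h3
  have hZV : ∀ i, Z i ≤ V i := fun i => Z2_le _ _ _
  have hZV' : ∀ i, Z (i + 1) ≤ V i := fun i => Z2_le' _ _ _
  have hZA : ∀ i, Z i ∈ ApS 2 G := by
    intro i
    refine ⟨?_, fun x hx y hy => (hVA i).2.1 x (hZV i hx) y (hZV i hy),
      fun x hx => (hVA i).2.2 x (hZV i hx)⟩
    intro h
    have h3 : g i ∈ Z i := Or.inr rfl
    rw [h, mem_bot] at h3
    exact h1 i h3
  have hlt : ∀ i, Z i < V i := by
    intro i
    refine lt_of_le_of_ne (hZV i) fun h => ?_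
    have h3 := hgV' i
    rw [← h] at h3
    rcases h3 with h3 | h3
    · exact h1 _ h3
    · exact hd i h3.symm
  have hlt' : ∀ i, Z (i + 1) < V i := by
    intro i
    refine lt_of_le_of_ne (hZV' i) fun h => ?_
    have h3 := hgV i
    rw [← h] at h3
    rcases h3 with h3 | h3
    · exact h1 _ h3
    · exact hd i h3
  have hne : ∀ i, i ≠ 0 → V i ≠ V 0 := by
    intro i hi h
    have hcm : ∀ x ∈ V 0, ∀ y ∈ V 0, x * y = y * x := (hVA 0).2.1
    have k0 : g 0 ∈ V 0 := hgV 0
    have k1 : g (0 + 1) ∈ V 0 := hgV' 0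
    have k2 : g i ∈ V 0 := h ▸ hgV i
    have k3 : g (i + 1) ∈ V 0 := h ▸ hgV' i
    have hi' : ∀ j : ZMod 5, j ≠ 0 → j = 1 ∨ j = 2 ∨ j = 3 ∨ j = 4 := by decide
    rcases hi' i hi with rfl | rfl | rfl | rfl
    · exact hn' 0 (hcm _ k0 _ k3)
    · exact hn' 0 (hcm _ k0 _ k2)
    · exact hn' (0 + 1) (hcm _ k1 _ k2)
    · exact hn' 4 (hcm _ k2 _ k1)
  have hZne : Z (0 + 1) ≠ Z 0 := by
    intro h
    have h3 : g (0 + 1) ∈ Z (0 + 1) := Or.inr rfl
    rw [h] at h3
    rcases h3 with h3 | h3
    · exact h1 _ h3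
    · exact hd 0 h3.symm
  set α : Ch k (Subgroup G) := ∑ i : ZMod 5, (single [V i, Z i] (1 : k) - single [V i, Z (i + 1)] 1)
    with hα
  have hb : ∀ A B : Subgroup G, bd (single [A, B] (1 : k)) = single [B] 1 - single [A] 1 := by
    intro A B
    rw [bd_single_cons, bd_single_cons, bd_single_nil, map_zero, sub_zero, cons_single]
  refine ⟨α, [V 0, Z 0], ?_, ?_, ?_, Or.inr ⟨[Z 0], ?_⟩, ?_⟩
  · rw [hα]
    refine Submodule.sum_mem _ fun i _ => Submodule.sub_mem _ (single_mem_Sp ?_ _)
      (single_mem_Sp ?_ _)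
    · refine ⟨⟨?_, ?_⟩, rfl⟩
      · rw [List.pairwise_pair]
        exact hlt i
      · intro A hA
        simp only [List.mem_cons, List.not_mem_nil, or_false] at hA
        rcases hA with rfl | rfl
        · exact ⟨hVA i, hVM i⟩
        · exact ⟨hZA i, (hZV i).trans (hVM i)⟩
    · refine ⟨⟨?_, ?_⟩, rfl⟩
      · rw [List.pairwise_pair]
        exact hlt' i
      · intro A hA
        simp only [List.mem_cons, List.not_mem_nil, or_false] at hA
        rcases hA with rfl | rfl
        · exact ⟨hVA i, hVM i⟩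
        · exact ⟨hZA (i + 1), (hZV' i).trans (hVM i)⟩
  · rw [hα, map_sum]
    have h3 : ∀ i : ZMod 5, bd (single [V i, Z i] (1 : k) - single [V i, Z (i + 1)] 1) =
        single [Z i] (1 : k) - single [Z (i + 1)] 1 := by
      intro i
      rw [map_sub, hb, hb]
      abel
    rw [Finset.sum_congr rfl fun i _ => h3 i, Finset.sum_sub_distrib, sub_eq_zero]
    exact (Equiv.sum_comp (Equiv.addRight (1 : ZMod 5)) fun i => single [Z i] (1 : k)).symm
  · have h3 : ∀ i : ZMod 5,
        ((single [V i, Z i] (1 : k) - single [V i, Z (i + 1)] 1 : Ch k (Subgroup G))) [V 0, Z 0] =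
        if i = 0 then 1 else 0 := by
      intro i
      rw [Finsupp.sub_apply, Finsupp.single_apply, Finsupp.single_apply]
      by_cases hi : i = 0
      · subst hi
        rw [if_pos rfl, if_neg, if_pos rfl, sub_zero]
        intro h
        simp only [List.cons.injEq, and_true, true_and] at h
        exact hZne h
      · rw [if_neg, if_neg, if_neg hi, sub_zero]
        · intro h
          simp only [List.cons.injEq, and_true] at h
          exact hne i hi h.1
        · intro h
          simp only [List.cons.injEq, and_true] at h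
          exact hne i hi h.1
    rw [hα, Finsupp.finset_sum_apply, Finset.sum_congr rfl fun i _ => h3 i,
      Finset.sum_ite_eq' Finset.univ (0 : ZMod 5), if_pos (Finset.mem_univ _)]
    exact one_ne_zero
  · have h3 : V 0 = closure {g 0, g (0 + 1)} := V4_eq (h2 0) (h2 (0 + 1)) (hc 0)
    rw [zero_add] at h3
    rw [← h3]
  · have h3 : V 0 = closure {g 0, g (0 + 1)} := V4_eq (h2 0) (h2 (0 + 1)) (hc 0)
    rw [zero_add] at h3
    rw [← h3]
    have h4 := V4_card (h2 0) (h2 (0 + 1)) (hc 0) (h1 0) (h1 (0 + 1)) (hd 0)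
    rw [List.length_cons, List.length_cons, List.length_nil]
    exact h4

end pent

end Vale.Agent.P240.R2.H506
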