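import Vale.Agent.P240.R2.H406.S0
import Vale.Agent.P240.R2.H490.P5Geo

/-!
The system of reflections attached to a coordinate subspace of `diag(a)` over `ZMod 5`, corrected by
sign changes at the other coordinates.
-/

set_option autoImplicit false
set_option linter.all false

namespace Vale.Agent.P240.R2.H506

open Matrix Subgroup
open Vale.Agent.P240.R2.H145.EO (B OD)
open Vale.Agent.P240.R2.H145
open Vale.Agent.P240.R2.H406
open Vale.Agent.P240.R2.H490 (ip VR Lt FrD Ew Sm pj)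

universe u v w

noncomputable section

section ext
variable {n m : ℕ} (ι : Fin m → Fin n)

/-- extension by zero -/
def ex (x : Fin m → ZMod 5) : Fin n → ZMod 5 := Function.extend ι x 0

variable {ι}

lemma ex_off (x : Fin m → ZMod 5) {k : Fin n} (hk : ¬ ∃ i, ι i = k) : ex ι x k = 0 :=
  Function.extend_apply' _ _ _ hk

variable (hι : Function.Injective ι)
include hι

lemma ex_apply (x : Fin m → ZMod 5) (i : Fin m) : ex ι x (ι i) = x i := hι.extend_apply _ _ _

lemma ex_add (x y : Fin m → ZMod 5) : ex ι (x + y) = ex ι x + ex ι y := by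
  funext k
  by_cases h : ∃ i, ι i = k
  · obtain ⟨i, rfl⟩ := h
    rw [Pi.add_apply, ex_apply hι, ex_apply hι, ex_apply hι, Pi.add_apply]
  · rw [Pi.add_apply, ex_off _ h, ex_off _ h, ex_off _ h, add_zero]

lemma ex_smul (c : ZMod 5) (x : Fin m → ZMod 5) : ex ι (c • x) = c • ex ι x := by
  funext k
  by_cases h : ∃ i, ι i = k
  · obtain ⟨i, rfl⟩ := h
    rw [Pi.smul_apply, ex_apply hι, ex_apply hι, Pi.smul_apply]
  · rw [Pi.smul_apply, ex_off _ h, ex_off _ h, smul_zero]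

lemma ex_neg (x : Fin m → ZMod 5) : ex ι (-x) = -ex ι x := by
  rw [← neg_one_smul (ZMod 5) x, ex_smul hι, neg_one_smul]

lemma ex_sub (x y : Fin m → ZMod 5) : ex ι (x - y) = ex ι x - ex ι y := by
  rw [sub_eq_add_neg, ex_add hι, ex_neg hι, ← sub_eq_add_neg]

lemma ex_inj {x y : Fin m → ZMod 5} (h : ex ι x = ex ι y) : x = y := by
  funext i
  rw [← ex_apply hι x i, h, ex_apply hι]

lemma ex_single (i : Fin m) : ex ι (Pi.single i 1) = Pi.single (ι i) 1 := by
  funext k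
  by_cases h : ∃ i, ι i = k
  · obtain ⟨j, rfl⟩ := h
    rw [ex_apply hι]
    by_cases hij : j = i
    · subst hij
      rw [Pi.single_eq_same, Pi.single_eq_same]
    · rw [Pi.single_eq_of_ne hij, Pi.single_eq_of_ne fun h => hij (hι h)]
  · rw [ex_off _ h, Pi.single_eq_of_ne fun h' => h ⟨i, h'.symm⟩]

lemma B_ex (a : Fin n → ZMod 5) (x y : Fin m → ZMod 5) :
    B a (ex ι x) (ex ι y) = ip (a ∘ ι) x y := by
  unfold B ip
  symm
  refine Fintype.sum_of_injective ι hι _ _ ?_ ?_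
  · intro k hk
    rw [ex_off x (by simpa using hk), mul_zero, zero_mul]
  · intro i
    rw [ex_apply hι, ex_apply hι]
    rfl

end ext

section
variable {n m : ℕ} {a : Fin n → ZMod 5} {ι : Fin m → Fin n} {ρ₁ ρ₂ : Finset (Fin n)}

/-- disjoint from the coordinates of the subspace -/
def Dj (ι : Fin m → Fin n) (J : Finset (Fin n)) : Prop := ∀ k ∈ J, ¬ ∃ i, ι i = k

lemma act_sg_ex {J : Finset (Fin n)} (hJ : Dj ι J) (x : Fin m → ZMod 5) :
    act (sg a J) (ex ι x) = ex ι x := by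
  rw [act_sg]
  funext k
  by_cases h : k ∈ J
  · rw [if_pos h, ex_off x (hJ k h), neg_zero]
  · rw [if_neg h]

lemma sg_rfl_comm {J : Finset (Fin n)} (hJ : Dj ι J) (x : Fin m → ZMod 5) :
    sg a J * rfl' a (ex ι x) = rfl' a (ex ι x) * sg a J := by
  have h1 := rfl'_conj (a := a) (sg a J) (ex ι x)
  rw [act_sg_ex hJ] at h1
  exact mul_inv_eq_iff_eq_mul.1 h1

/-- the correction -/
def cr (ρ₁ ρ₂ : Finset (Fin n)) (t : ZMod 5) : Finset (Fin n) := if IsSquare t then ρ₁ else ρ₂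

lemma cr_dj (h1 : Dj ι ρ₁) (h2 : Dj ι ρ₂) (t : ZMod 5) : Dj ι (cr ρ₁ ρ₂ t) := by
  rw [cr]
  split_ifs
  · exact h1
  · exact h2

lemma sq_mul : ∀ c t : ZMod 5, c ≠ 0 → (IsSquare (c * (c * t)) ↔ IsSquare t) := by decide

lemma sq_mul' : ∀ c t : ZMod 5, c ≠ 0 → (IsSquare (c * c * t) ↔ IsSquare t) := by decide

lemma sq_prod : ∀ s t : ZMod 5, s ≠ 0 → t ≠ 0 → (IsSquare (s * t) ↔ (IsSquare s ↔ IsSquare t)) := by
  decide

/-- the corrected reflection -/
def RR (a : Fin n → ZMod 5) (ι : Fin m → Fin n) (ρ₁ ρ₂ : Finset (Fin n)) (x : Fin m → ZMod 5) :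
    ↥(OD a) := rfl' a (ex ι x) * sg a (cr ρ₁ ρ₂ (B a (ex ι x) (ex ι x)))

lemma cr_mul {s t s' t' : ZMod 5} (hs : s ≠ 0) (ht : t ≠ 0) (hs' : s' ≠ 0) (ht' : t' ≠ 0)
    (h : IsSquare (s * t) ↔ IsSquare (s' * t')) :
    sg a (cr ρ₁ ρ₂ s) * sg a (cr ρ₁ ρ₂ t) = sg a (cr ρ₁ ρ₂ s') * sg a (cr ρ₁ ρ₂ t') := by
  rw [sq_prod s t hs ht, sq_prod s' t' hs' ht'] at h
  unfold cr
  by_cases h1 : IsSquare s <;> by_cases h2 : IsSquare t <;> by_cases h3 : IsSquare s' <;>
    by_cases h4 : IsSquare t' <;> simp only [h1, h2, h3, h4, if_true, if_false, iff_true, iff_false,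
      true_iff, false_iff, not_true_eq_false, not_false_eq_true, iff_self] at h ⊢ <;>
    first
      | rfl
      | rw [sg_mul_self, sg_mul_self]
      | exact sg_comm _ _
      | exact h.elim
      | simp at h

/-- the projection onto a plane -/
lemma plane_aux {X Y X' Y' α β γ δ p q : ZMod 5} (hX : X ≠ 0) (hY : Y ≠ 0) (hX' : X' ≠ 0)
    (hY' : Y' ≠ 0) (h1 : X' = α * α * X + β * β * Y) (h2 : Y' = γ * γ * X + δ * δ * Y)
    (h3 : α * γ * X + β * δ * Y = 0) :
    α * (α * p + β * q) / X' + γ * (γ * p + δ * q) / Y' = p / X := by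
  have h4 : X' * Y' = X * Y * ((α * δ - β * γ) * (α * δ - β * γ)) := by
    rw [h1, h2]
    linear_combination (α * γ * X + β * δ * Y) * h3
  have h5 : (α * α * Y' + γ * γ * X') * X = X' * Y' := by
    rw [h4, h1, h2]
    linear_combination (2 * α * γ * X) * h3
  have h6 : (α * β * Y' + γ * δ * X') * Y = 0 := by
    rw [h1, h2]
    linear_combination (α * δ * Y + γ * β * Y) * h3
  have h7 : α * β * Y' + γ * δ * X' = 0 := (mul_eq_zero.1 h6).resolve_right hY
  field_simp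
  linear_combination p * h5 + q * X * h7

variable (hι : Function.Injective ι)
include hι

/-- two reflections in a plane -/
lemma plane_rfl {x y x' y' : Fin m → ZMod 5} (hx : ip (a ∘ ι) x x ≠ 0) (hy : ip (a ∘ ι) y y ≠ 0)
    (hx' : ip (a ∘ ι) x' x' ≠ 0) (hy' : ip (a ∘ ι) y' y' ≠ 0) (hxy : ip (a ∘ ι) x y = 0)
    (hxy' : ip (a ∘ ι) x' y' = 0) {α β γ δ : ZMod 5} (h1 : x' = α • x + β • y)
    (h2 : y' = γ • x + δ • y) :
    rfl' a (ex ι x) * rfl' a (ex ι y) = rfl' a (ex ι x') * rfl' a (ex ι y') ∧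
    ip (a ∘ ι) x' x' * ip (a ∘ ι) y' y' = ip (a ∘ ι) x x * ip (a ∘ ι) y y *
      ((α * δ - β * γ) * (α * δ - β * γ)) ∧ (α * δ - β * γ) ≠ 0 := by
  set X := ip (a ∘ ι) x x with hXd
  set Y := ip (a ∘ ι) y y with hYd
  have hyx : ip (a ∘ ι) y x = 0 := by rw [H490.ip_comm, hxy]
  have e1 : ip (a ∘ ι) x' x' = α * α * X + β * β * Y := by
    rw [h1]
    simp only [H490.ip_add_left, H490.ip_add_right, H490.ip_smul_left, H490.ip_smul_right, hxy, hyx]
    ring
  have e2 : ip (a ∘ ι) y' y' = γ * γ * X + δ * δ * Y := by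
    rw [h2]
    simp only [H490.ip_add_left, H490.ip_add_right, H490.ip_smul_left, H490.ip_smul_right, hxy, hyx]
    ring
  have e3 : α * γ * X + β * δ * Y = 0 := by
    rw [← hxy', h1, h2]
    simp only [H490.ip_add_left, H490.ip_add_right, H490.ip_smul_left, H490.ip_smul_right, hxy, hyx]
    ring
  have e4 : ip (a ∘ ι) x' x' * ip (a ∘ ι) y' y' = X * Y * ((α * δ - β * γ) * (α * δ - β * γ)) := by
    rw [e1, e2]
    linear_combination (α * γ * X + β * δ * Y) * e3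
  refine ⟨?_, e4, ?_⟩
  · have hBx : B a (ex ι x) (ex ι x) = X := B_ex hι a x x
    have hBy : B a (ex ι y) (ex ι y) = Y := B_ex hι a y y
    have hBx' := B_ex hι a x' x'
    have hBy' := B_ex hι a y' y'
    have hBxy : B a (ex ι x) (ex ι y) = 0 := (B_ex hι a x y).trans hxy
    have hBxy' : B a (ex ι x') (ex ι y') = 0 := (B_ex hι a x' y').trans hxy'
    have hgen : ∀ {x y : Fin m → ZMod 5}, ip (a ∘ ι) x x ≠ 0 → ip (a ∘ ι) y y ≠ 0 →
        ip (a ∘ ι) x y = 0 → ∀ z, act (rfl' a (ex ι x) * rfl' a (ex ι y)) z =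
          z - (2 : ZMod 5) • ((B a (ex ι x) z / ip (a ∘ ι) x x) • ex ι x +
            (B a (ex ι y) z / ip (a ∘ ι) y y) • ex ι y) := by
      intro x y hx hy hxy z
      rw [act_mul, act_rfl' (by rw [B_ex hι]; exact hx), act_rfl' (by rw [B_ex hι]; exact hy),
        EO.B_sub_right, EO.B_smul_right, B_ex hι, B_ex hι, B_ex hι, hxy, mul_zero, sub_zero,
        smul_add, smul_smul, smul_smul, mul_div_assoc, mul_div_assoc]
      abel
    refine act_ext fun z => ?_
    rw [hgen hx hy hxy, hgen hx' hy' hxy', ← hXd, ← hYd]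
    congr 2
    set p := B a (ex ι x) z with hp
    set q := B a (ex ι y) z with hq
    have e5 : ex ι x' = α • ex ι x + β • ex ι y := by
      rw [h1, ex_add hι, ex_smul hι, ex_smul hι]
    have e6 : ex ι y' = γ • ex ι x + δ • ex ι y := by
      rw [h2, ex_add hι, ex_smul hι, ex_smul hι]
    have e7 : B a (ex ι x') z = α * p + β * q := by
      rw [e5, EO.B_add_left, EO.B_smul_left, EO.B_smul_left]
    have e8 : B a (ex ι y') z = γ * p + δ * q := by
      rw [e6, EO.B_add_left, EO.B_smul_left, EO.B_smul_left]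
    have e9 := plane_aux (p := p) (q := q) hx hy hx' hy' e1 e2 e3
    have e10 : β * (β * q + α * p) / ip (a ∘ ι) x' x' + δ * (δ * q + γ * p) / ip (a ∘ ι) y' y' =
        q / Y := plane_aux (p := q) (q := p) hy hx hx' hy' (by rw [e1]; ring) (by rw [e2]; ring)
          (by rw [← e3]; ring)
    rw [e7, e8, ← e9, ← e10, e5, e6]
    module
  · intro h0
    rw [h0, mul_zero, mul_zero] at e4
    exact mul_ne_zero hx' hy' e4

omit hι in
/-- a vector orthogonal to two given ones -/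
lemma exists_perp (hm : 3 ≤ m) (d : Fin m → ZMod 5) (x y : Fin m → ZMod 5) :
    ∃ z : Fin m → ZMod 5, z ≠ 0 ∧ ip d x z = 0 ∧ ip d y z = 0 := by
  let f : (Fin m → ZMod 5) →ₗ[ZMod 5] (Fin 2 → ZMod 5) :=
    { toFun := fun z => ![ip d x z, ip d y z]
      map_add' := fun z z' => by
        rw [H490.ip_add_right, H490.ip_add_right]
        simp
      map_smul' := fun c z => by
        rw [H490.ip_smul_right, H490.ip_smul_right]
        simp }
  have h1 : LinearMap.ker f ≠ ⊥ := LinearMap.ker_ne_bot_of_finrank_lt (by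
    rw [Module.finrank_fintype_fun_eq_card, Module.finrank_fintype_fun_eq_card, Fintype.card_fin,
      Fintype.card_fin]
    omega)
  obtain ⟨z, hz, hz0⟩ := (Submodule.ne_bot_iff _).1 h1
  rw [LinearMap.mem_ker] at hz
  exact ⟨z, hz0, congrFun hz 0, congrFun hz 1⟩

variable {G : Type u} [Group G] (Φ : ↥(OD a) →* G)

omit hι in
lemma five (c : ZMod 5) (h : 2 * c = 0) : c = 0 := by
  revert c
  decide

/-- **the system of reflections** -/
theorem vr (h1 : Dj ι ρ₁) (h2 : Dj ι ρ₂) (hm : 3 ≤ m) (ha : ∀ i, a i ≠ 0)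
    (hker : ∀ g, Φ g = 1 → g = 1 ∨ g = sg a Finset.univ) :
    VR (a ∘ ι) (fun x => Φ (RR a ι ρ₁ ρ₂ x)) where
  smul c x hc hx := by
    show Φ _ = Φ _
    congr 1
    rw [RR, RR, ex_smul hι, rfl'_smul hc, EO.B_smul_left, EO.B_smul_right]
    congr 2
    rw [cr, cr]
    simp only [sq_mul c _ hc]
  inj x y hx hy hxy := by
    have hxy' : Φ (RR a ι ρ₁ ρ₂ x) = Φ (RR a ι ρ₁ ρ₂ y) := hxy
    have h3 : Φ (RR a ι ρ₁ ρ₂ x * (RR a ι ρ₁ ρ₂ y)⁻¹) = 1 := by
      rw [map_mul, map_inv, hxy', mul_inv_cancel]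
    have hact : ∀ (x z : Fin m → ZMod 5), ip (a ∘ ι) x x ≠ 0 → act (RR a ι ρ₁ ρ₂ x) (ex ι z) =
        ex ι z - (2 * ip (a ∘ ι) x z / ip (a ∘ ι) x x) • ex ι x := by
      intro x z hx
      rw [RR, act_mul, act_sg_ex (cr_dj h1 h2 _), act_rfl' (by rw [B_ex hι]; exact hx), B_ex hι,
        B_ex hι]
    have h4 : RR a ι ρ₁ ρ₂ x = RR a ι ρ₁ ρ₂ y := by
      rcases hker _ h3 with h4 | h4
      · exact mul_inv_eq_one.1 h4
      · exfalso
        obtain ⟨z, hz0, hz1, hz2⟩ := exists_perp hm (a ∘ ι) x y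
        have h5 : RR a ι ρ₁ ρ₂ x = sg a Finset.univ * RR a ι ρ₁ ρ₂ y := by
          rw [← h4, inv_mul_cancel_right]
        have h6 := hact x z hx
        rw [h5, act_mul, hact y z hy, hz1, hz2, mul_zero, zero_div, zero_smul, sub_zero, zero_div,
          zero_smul, sub_zero, act_sg] at h6
        apply hz0
        funext i
        have h7 := congrFun h6 (ι i)
        simp only [Finset.mem_univ, if_true, ex_apply hι] at h7
        refine five _ ?_
        rw [two_mul]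
        nth_rw 1 [← h7]
        exact neg_add_cancel _
    have h5 := hact x y hx
    rw [h4, hact y y hy] at h5
    refine ⟨ip (a ∘ ι) x y / ip (a ∘ ι) x x, ?_⟩
    apply ex_inj hι
    rw [ex_smul hι]
    have h6 : (2 * ip (a ∘ ι) y y / ip (a ∘ ι) y y) = (2 : ZMod 5) := by
      rw [mul_div_assoc, div_self hy, mul_one]
    rw [h6, mul_div_assoc, ← smul_smul] at h5
    have h7 := sub_right_injective h5
    have h8 : (3 : ZMod 5) • (2 : ZMod 5) • ex ι y = (3 : ZMod 5) • (2 : ZMod 5) •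
      ((ip (a ∘ ι) x y / ip (a ∘ ι) x x) • ex ι x) := congrArg _ h7
    have h9 : (3 : ZMod 5) * 2 = 1 := by decide
    rwa [smul_smul, smul_smul, h9, one_smul, one_smul] at h8
  sq x hx := by
    show Φ _ * Φ _ = 1
    rw [← map_mul, RR, mul_assoc, ← mul_assoc (sg a _), sg_rfl_comm (cr_dj h1 h2 _), mul_assoc,
      ← mul_assoc, rfl'_mul_self, one_mul, sg_mul_self, map_one]
  cnj x y hx hy := by
    show Φ _ * Φ _ * Φ _ = Φ _
    rw [← map_mul, ← map_mul]
    congr 1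
    have h3 : ex ι (H490.rf (a ∘ ι) x y) = act (rfl' a (ex ι x)) (ex ι y) := by
      rw [act_rfl' (by rw [B_ex hι]; exact hx), B_ex hι, B_ex hι, H490.rf, ex_sub hι, ex_smul hι]
      congr 2
      rw [div_eq_mul_inv]
      ring
    have h4 : ∀ t, sg a (cr ρ₁ ρ₂ t) * rfl' a (ex ι x) = rfl' a (ex ι x) * sg a (cr ρ₁ ρ₂ t) :=
      fun t => sg_rfl_comm (cr_dj h1 h2 t) x
    have h5 : ∀ t, sg a (cr ρ₁ ρ₂ t) * rfl' a (ex ι y) = rfl' a (ex ι y) * sg a (cr ρ₁ ρ₂ t) :=
      fun t => sg_rfl_comm (cr_dj h1 h2 t) y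
    have h6 := rfl'_conj (a := a) (rfl' a (ex ι x)) (ex ι y)
    rw [rfl'_inv] at h6
    rw [RR, RR, RR, h3, act_B, ← h6]
    set s := cr ρ₁ ρ₂ (B a (ex ι x) (ex ι x)) with hs
    set t := cr ρ₁ ρ₂ (B a (ex ι y) (ex ι y)) with ht
    calc rfl' a (ex ι x) * sg a s * (rfl' a (ex ι y) * sg a t) * (rfl' a (ex ι x) * sg a s)
        = rfl' a (ex ι x) * (sg a s * rfl' a (ex ι y)) * (sg a t * rfl' a (ex ι x)) * sg a s := by
          group
      _ = rfl' a (ex ι x) * (rfl' a (ex ι y) * sg a s) * (rfl' a (ex ι x) * sg a t) * sg a s := by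
          rw [h5, h4]
      _ = rfl' a (ex ι x) * rfl' a (ex ι y) * (sg a s * rfl' a (ex ι x)) * (sg a t * sg a s) := by
          group
      _ = rfl' a (ex ι x) * rfl' a (ex ι y) * (rfl' a (ex ι x) * sg a s) * (sg a s * sg a t) := by
          rw [h4, sg_comm t s]
      _ = rfl' a (ex ι x) * rfl' a (ex ι y) * rfl' a (ex ι x) * ((sg a s * sg a s) * sg a t) := by
          group
      _ = rfl' a (ex ι x) * rfl' a (ex ι y) * rfl' a (ex ι x) * sg a t := by
          rw [sg_mul_self, one_mul]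
  plane x y x' y' hx hy hx' hy' hxy hxy' hp hq := by
    show Φ _ * Φ _ = Φ _ * Φ _
    rw [← map_mul, ← map_mul]
    congr 1
    obtain ⟨α, β, hp⟩ := hp
    obtain ⟨γ, δ, hq⟩ := hq
    obtain ⟨h3, h4, h5⟩ := plane_rfl hι hx hy hx' hy' hxy hxy' hp hq
    have h6 : ∀ x y : Fin m → ZMod 5, RR a ι ρ₁ ρ₂ x * RR a ι ρ₁ ρ₂ y =
        rfl' a (ex ι x) * rfl' a (ex ι y) * (sg a (cr ρ₁ ρ₂ (ip (a ∘ ι) x x)) *
          sg a (cr ρ₁ ρ₂ (ip (a ∘ ι) y y))) := by
      intro x y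
      rw [RR, RR, B_ex hι, B_ex hι]
      have h7 := sg_rfl_comm (a := a) (cr_dj h1 h2 (ip (a ∘ ι) x x)) y
      calc _ = rfl' a (ex ι x) * (sg a (cr ρ₁ ρ₂ (ip (a ∘ ι) x x)) * rfl' a (ex ι y)) *
            sg a (cr ρ₁ ρ₂ (ip (a ∘ ι) y y)) := by group
        _ = _ := by rw [h7]; group
    rw [h6, h6, h3]
    congr 1
    refine cr_mul hx hy hx' hy' ?_
    rw [h4, mul_comm _ ((α * δ - β * γ) * (α * δ - β * γ)), sq_mul' _ _ h5]

end

end

end Vale.Agent.P240.R2.H506
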