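import Vale.Agent.P240.R2.H506.CycA

/-!
The products over the frames.
-/

set_option autoImplicit false
set_option linter.all false

namespace Vale.Agent.P240.R2.H506

open Matrix Subgroup
open Vale.Agent.P240.R2.H145.EO (B OD)
open Vale.Agent.P240.R2.H145
open Vale.Agent.P240.R2.H406
open Vale.Agent.P240.R2.H490 (ip VR Lt FrD Ew Sm pj)

universe u v w

noncomputable section

section
variable {n m : ℕ} {a : Fin n → ZMod 5} {ι : Fin m → Fin n} {ρ₁ ρ₂ : Finset (Fin n)}
  (hι : Function.Injective ι)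

/-- products of reflections of pairwise orthogonal vectors -/
lemma prod_act (hι : Function.Injective ι) {w : List (Lt (a ∘ ι))}
    (hw : w.Pairwise (fun P Q => P.v * Q.v = 0)) (y : Fin m → ZMod 5) :
    act ((w.map fun P => rfl' a (ex ι P.x)).prod) (ex ι y) =
      ex ι ((1 - (2 : ZMod 5) • Sm Lt.v w) *ᵥ y) := by
  induction w with
  | nil =>
    rw [List.map_nil, List.prod_nil, act_one, H490.Sm_nil, smul_zero, sub_zero, one_mulVec]
  | cons P w ih =>
    have h1 := List.pairwise_cons.1 hw
    rw [List.map_cons, List.prod_cons, act_mul, ih h1.2]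
    have h2 : (1 - (2 : ZMod 5) • Sm Lt.v (P :: w)) *ᵥ y =
        H490.rf (a ∘ ι) P.x ((1 - (2 : ZMod 5) • Sm Lt.v w) *ᵥ y) := by
      rw [H490.rf_eq, mulVec_mulVec, ← P.v_eq]
      congr 1
      have h3 : P.v * Sm Lt.v w = 0 := by
        have h4 : ∀ w : List (Lt (a ∘ ι)), (∀ Q ∈ w, P.v * Q.v = 0) → P.v * Sm Lt.v w = 0 := by
          intro w
          induction w with
          | nil => intro _; rw [H490.Sm_nil, mul_zero]
          | cons b w ih =>
            intro h
            rw [H490.Sm_cons, mul_add, ih fun Q hQ => h Q (List.mem_cons_of_mem _ hQ), add_zero,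
              h b (by simp)]
        exact h4 w h1.1
      rw [sub_mul, one_mul, mul_sub, mul_one, smul_mul_smul_comm, h3, smul_zero, sub_zero,
        H490.Sm_cons, smul_add]
      abel
    rw [h2, H490.rf, act_rfl' (by rw [B_ex hι]; exact P.hx), B_ex hι, B_ex hι, ex_sub hι, ex_smul hι]
    congr 2
    rw [div_eq_mul_inv]
    ring

/-- the reflections fix the vectors supported off the subspace -/
lemma prod_fix (w : List (Lt (a ∘ ι))) (hι : Function.Injective ι) {z : Fin n → ZMod 5}
    (hz : ∀ i, z (ι i) = 0) : act ((w.map fun P => rfl' a (ex ι P.x)).prod) z = z := by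
  induction w with
  | nil => rw [List.map_nil, List.prod_nil, act_one]
  | cons P w ih =>
    rw [List.map_cons, List.prod_cons, act_mul, ih, act_rfl' (by rw [B_ex hι]; exact P.hx)]
    have h : B a (ex ι P.x) z = 0 := by
      unfold B
      refine Finset.sum_eq_zero fun k _ => ?_
      by_cases h : ∃ i, ι i = k
      · obtain ⟨i, rfl⟩ := h
        rw [hz, mul_zero]
      · rw [ex_off _ h, mul_zero, zero_mul]
    rw [h, mul_zero, zero_div, zero_smul, sub_zero]

/-- the product of the reflections of a frame -/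
lemma prod_frame (hι : Function.Injective ι) {I : Finset (Fin n)} (hI : ∀ k, k ∈ I ↔ ∃ i, ι i = k)
    {w : List (Lt (a ∘ ι))} (hw : w ∈ FrD (a ∘ ι)) :
    (w.map fun P => rfl' a (ex ι P.x)).prod = sg a I := by
  obtain ⟨h1, h2⟩ := H490.mem_FrD.1 hw
  refine act_ext fun x => ?_
  set r : Fin n → ZMod 5 := fun k => if k ∈ I then 0 else x k with hr
  have hx : x = ex ι (fun i => x (ι i)) + r := by
    funext k
    rw [Pi.add_apply, hr]
    by_cases h : ∃ i, ι i = k
    · simp only [(hI k).2 h, if_true, add_zero]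
      obtain ⟨i, rfl⟩ := h
      rw [ex_apply hι]
    · have h' : k ∉ I := fun h' => h ((hI k).1 h')
      simp only [h', if_false]
      rw [ex_off _ h, zero_add]
  have hfix := prod_fix w hι (z := r) fun i => by
    simp only [hr, (hI (ι i)).2 ⟨i, rfl⟩, if_true]
  have hneg := prod_act hι h2 (fun i => x (ι i))
  rw [H490.Sm_eq_one h2 h1] at hneg
  have h3 : (1 - (2 : ZMod 5) • (1 : Matrix (Fin m) (Fin m) (ZMod 5))) *ᵥ (fun i => x (ι i)) =
      -(fun i => x (ι i)) := by
    rw [sub_mulVec, smul_mulVec, one_mulVec, two_smul]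
    abel
  rw [h3, ex_neg hι] at hneg
  rw [hx, act_add, hneg, hfix, act_sg]
  funext k
  rw [Pi.add_apply, Pi.add_apply, Pi.neg_apply]
  by_cases h : k ∈ I
  · rw [if_pos h]
    have h4 : r k = 0 := by simp only [hr, h, if_true]
    rw [h4, add_zero, add_zero]
  · rw [if_neg h, ex_off _ fun h' => h ((hI k).2 h'), neg_zero]

/-- products of squares and nonsquares -/
lemma sq_list (l : List (ZMod 5)) (hl : ∀ t ∈ l, t ≠ 0) :
    l.prod ≠ 0 ∧ (IsSquare l.prod ↔ Even (l.countP (fun t => ¬ IsSquare t))) := by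
  induction l with
  | nil => exact ⟨by decide, by simp⟩
  | cons t l ih =>
    obtain ⟨h1, h2⟩ := ih fun s hs => hl s (List.mem_cons_of_mem _ hs)
    have ht := hl t (by simp)
    rw [List.prod_cons]
    refine ⟨mul_ne_zero ht h1, ?_⟩
    rw [sq_prod _ _ ht h1, h2, List.countP_cons]
    by_cases h3 : IsSquare t
    · simp [h3]
    · simp only [h3, false_iff, not_false_eq_true, decide_true, if_true, Nat.even_add_one]

/-- Gram determinant -/
lemma gram {d : Fin m → ZMod 5} {w : List (Lt d)} (hw : w ∈ FrD d) :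
    ∃ t : ZMod 5, (w.map fun P => ip d P.x P.x).prod = t * t * (List.ofFn d).prod := by
  obtain ⟨h1, h2⟩ := H490.mem_FrD.1 hw
  have h3 : ∀ i j : Fin m, i ≠ j → ip d (w.get (Fin.cast h1.symm i)).x
      (w.get (Fin.cast h1.symm j)).x = 0 := by
    intro i j hij
    have h4 := List.pairwise_iff_get.1 h2
    rcases lt_or_gt_of_ne hij with h5 | h5
    · exact (Lt.orth_iff _ _).1 (h4 (Fin.cast h1.symm i) (Fin.cast h1.symm j) h5)
    · rw [H490.ip_comm]
      exact (Lt.orth_iff _ _).1 (h4 (Fin.cast h1.symm j) (Fin.cast h1.symm i) h5)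
  set X : Matrix (Fin m) (Fin m) (ZMod 5) := fun i j => (w.get (Fin.cast h1.symm i)).x j with hX
  have h4 : X * diagonal d * Xᵀ = diagonal fun i => ip d (w.get (Fin.cast h1.symm i)).x
      (w.get (Fin.cast h1.symm i)).x := by
    ext i j
    have h5 : (X * diagonal d * Xᵀ) i j = ip d (w.get (Fin.cast h1.symm i)).x
        (w.get (Fin.cast h1.symm j)).x := by
      rw [Matrix.mul_apply, ip]
      refine Finset.sum_congr rfl fun k _ => ?_
      rw [Matrix.mul_diagonal, transpose_apply]
      show X i k * d k * X j k = d k * X i k * X j k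
      ring
    rw [h5, diagonal_apply]
    split_ifs with h6
    · rw [h6]
    · exact h3 i j h6
  have h5 := congrArg Matrix.det h4
  rw [det_mul, det_mul, det_transpose, det_diagonal, det_diagonal] at h5
  refine ⟨X.det, ?_⟩
  have h6 : (w.map fun P => ip d P.x P.x).prod = ∏ i : Fin m, ip d (w.get (Fin.cast h1.symm i)).x
      (w.get (Fin.cast h1.symm i)).x := by
    rw [← List.prod_ofFn]
    congr 1
    apply List.ext_get
    · simp [h1]
    · intro i h7 h8
      simp
  rw [h6, ← h5, List.prod_ofFn]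
  ring

/-- the sign changes of a frame -/
lemma prod_sg (w : List (ZMod 5)) :
    (w.map fun t => sg a (cr ρ₁ ρ₂ t)).prod =
      sg a ρ₁ ^ (w.countP fun t => IsSquare t) * sg a ρ₂ ^ (w.countP fun t => ¬ IsSquare t) := by
  induction w with
  | nil => simp
  | cons t w ih =>
    rw [List.map_cons, List.prod_cons, ih, List.countP_cons, List.countP_cons, cr]
    by_cases h : IsSquare t
    · simp only [h, if_true, decide_true, not_true_eq_false, decide_false, Bool.false_eq_true,
        if_false, add_zero]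
      rw [← mul_assoc, ← pow_succ']
    · simp only [h, if_false, decide_false, Bool.false_eq_true, not_false_eq_true, decide_true,
        if_true, add_zero]
      have h2 : Commute (sg a ρ₂) (sg a ρ₁ ^ (w.countP fun t => IsSquare t)) :=
        Commute.pow_right (show Commute (sg a ρ₂) (sg a ρ₁) from sg_comm _ _) _
      rw [← mul_assoc, h2.eq, mul_assoc, ← pow_succ']

lemma sg_pow (J : Finset (Fin n)) (k : ℕ) : sg a J ^ k = if Even k then 1 else sg a J := by
  split_ifs with h
  · obtain ⟨r, rfl⟩ := h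
    rw [← two_mul, pow_mul, pow_two, sg_mul_self, one_pow]
  · obtain ⟨r, rfl⟩ := Nat.not_even_iff_odd.1 h
    rw [pow_succ, pow_mul, pow_two, sg_mul_self, one_pow, one_mul]

/-- **the products over the frames** -/
theorem full (hι : Function.Injective ι) {I : Finset (Fin n)} (hI : ∀ k, k ∈ I ↔ ∃ i, ι i = k)
    (h1 : Dj ι ρ₁) (h2 : Dj ι ρ₂) (ha : ∀ i, a i ≠ 0) {G : Type u} [Group G] (Φ : ↥(OD a) →* G)
    {w : List (Lt (a ∘ ι))} (hw : w ∈ FrD (a ∘ ι)) :
    ∃ m₁ m₂ : ℕ, m₁ + m₂ = m ∧ (IsSquare (∏ i, a (ι i)) ↔ Even m₂) ∧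
      Ew (fun P : Lt (a ∘ ι) => Φ (RR a ι ρ₁ ρ₂ P.x)) w =
        Φ (sg a I * ((if Even m₁ then 1 else sg a ρ₁) * (if Even m₂ then 1 else sg a ρ₂))) := by
  obtain ⟨h3, h4⟩ := H490.mem_FrD.1 hw
  set l : List (ZMod 5) := w.map fun P => ip (a ∘ ι) P.x P.x with hl
  have hl0 : ∀ t ∈ l, t ≠ 0 := by
    intro t ht
    obtain ⟨P, -, rfl⟩ := List.mem_map.1 ht
    exact P.hx
  refine ⟨l.countP fun t => IsSquare t, l.countP fun t => ¬ IsSquare t, ?_, ?_, ?_⟩
  · have h5 := List.length_eq_countP_add_countP (fun t => decide (IsSquare t)) (l := l)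
    rw [hl, List.length_map, h3] at h5
    rw [h5, hl]
    congr 1
    refine List.countP_congr fun t _ => ?_
    simp
  · obtain ⟨t, ht⟩ := gram hw
    have h6 := sq_list l hl0
    rw [← h6.2, hl, ht]
    have ht0 : t ≠ 0 := by
      rintro rfl
      rw [mul_zero, zero_mul] at ht
      exact h6.1 ht
    rw [sq_mul' _ _ ht0, List.prod_ofFn]
    rfl
  · rw [← sg_pow, ← sg_pow, ← prod_sg, ← prod_frame hι hI hw]
    have h5 : ∀ w : List (Lt (a ∘ ι)), Ew (fun P : Lt (a ∘ ι) => Φ (RR a ι ρ₁ ρ₂ P.x)) w =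
        Φ ((w.map fun P => rfl' a (ex ι P.x)).prod *
          ((w.map fun P => ip (a ∘ ι) P.x P.x).map fun t => sg a (cr ρ₁ ρ₂ t)).prod) := by
      intro w
      induction w with
      | nil => simp
      | cons P w ih =>
        rw [H490.Ew_cons, ih, ← map_mul]
        congr 1
        rw [List.map_cons, List.map_cons, List.map_cons, List.prod_cons, List.prod_cons, RR,
          B_ex hι]
        set s := sg a (cr ρ₁ ρ₂ (ip (a ∘ ι) P.x P.x)) with hs
        have h6 : Commute s (w.map fun P => rfl' a (ex ι P.x)).prod := by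
          refine Commute.list_prod_right _ _ fun x hx => ?_
          obtain ⟨Q, -, rfl⟩ := List.mem_map.1 hx
          exact sg_rfl_comm (cr_dj h1 h2 _) Q.x
        calc _ = rfl' a (ex ι P.x) * (s * (w.map fun P => rfl' a (ex ι P.x)).prod) *
              ((w.map fun P => ip (a ∘ ι) P.x P.x).map fun t => sg a (cr ρ₁ ρ₂ t)).prod := by group
          _ = _ := by rw [h6.eq]; group
    exact h5 w

end

end

end Vale.Agent.P240.R2.H506
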